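import Vale.Agent.P086.H677.Near
import Mathlib.GroupTheory.CoprodI
import Mathlib.GroupTheory.Coprod.Basic

/-!
Amplification of a frame `σ : M → U(L(H))` along an injective homomorphism `H → K` to a
representation `M → U(L(K))`.
-/

set_option linter.all false

open scoped InnerProductSpace

namespace Vale.Agent.P086.H677

open Vale.Agent.P086
open ContinuousLinearMap

section iso

variable {X Y : Type}

/-- The isometry `δ_x ↦ v x` attached to an orthonormal family. -/
noncomputable def isoOf (v : X → Ell2 Y) (hv : Orthonormal ℂ v) : Ell2 X →ₗᵢ[ℂ] Ell2 Y :=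
  hv.orthogonalFamily.linearIsometry

theorem isoOf_dl (v : X → Ell2 Y) (hv : Orthonormal ℂ v) (x : X) : isoOf v hv (dl x) = v x := by
  classical
  have h := hv.orthogonalFamily.linearIsometry_apply_single (i := x) (1 : ℂ)
  have h2 : (dl x : Ell2 X) = lp.single 2 x (1 : ℂ) := by
    rw [IsoFrame.single_eq_smul_dl, one_smul]
  rw [isoOf, h2]
  refine h.trans ?_
  rw [LinearIsometry.toSpanSingleton_apply, one_smul]

theorem orthonormal_dl_comp (f : X → Y) (hf : Function.Injective f) :
    Orthonormal ℂ (fun x => (dl (f x) : Ell2 Y)) := by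
  classical
  rw [orthonormal_iff_ite]
  intro x y
  rw [inner_dl, dl_apply]
  by_cases h : x = y
  · rw [h, if_pos rfl, if_pos rfl]
  · rw [if_neg (fun h' => h (hf h')), if_neg h]

end iso

section amp

variable {H K M : Type} [Group H] [Group K] [Group M]

/-- The isometry `δ_h ↦ δ_{j h}`. -/
noncomputable def incl (j : H →* K) (hj : Function.Injective j) : Ell2 H →ₗᵢ[ℂ] Ell2 K :=
  isoOf (fun h => dl (j h)) (orthonormal_dl_comp j hj)

variable (j : H →* K) (hj : Function.Injective j)

theorem incl_dl (h : H) : incl j hj (dl h) = dl (j h) := isoOf_dl _ _ h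

theorem incl_apply (ξ : Ell2 H) (h : H) : (incl j hj ξ) (j h) = ξ h := by
  rw [← inner_dl, ← inner_dl, ← incl_dl j hj, LinearIsometry.inner_map_map]

theorem incl_apply_of_notMem (ξ : Ell2 H) {k : K} (hk : ∀ h, j h ≠ k) :
    (incl j hj ξ) k = 0 := by
  classical
  have h1 := (incl j hj).toContinuousLinearMap.hasSum (IsoFrame.hasSum_dl ξ)
  have h2 := (innerSL ℂ (dl k : Ell2 K)).hasSum h1
  have h3 : ∀ x, (innerSL ℂ (dl k : Ell2 K))
      ((incl j hj).toContinuousLinearMap (ξ x • (dl x : Ell2 H))) = 0 := by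
    intro x
    have e1 : (incl j hj).toContinuousLinearMap (ξ x • (dl x : Ell2 H)) = ξ x • dl (j x) := by
      rw [map_smul]
      congr 1
      exact incl_dl j hj x
    rw [e1, innerSL_apply_apply, inner_smul_right, inner_dl, dl_apply, if_neg (fun h => hk x h.symm),
      mul_zero]
  simp only [Function.comp_def, h3] at h2
  have h4 := h2.unique hasSum_zero
  rw [innerSL_apply_apply, inner_dl] at h4
  exact h4

theorem rho_incl (x : H) (ξ : Ell2 H) : rho (j x) (incl j hj ξ) = incl j hj (rho x ξ) := by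
  have h2 : (rho (j x)) ∘L ((incl j hj).toContinuousLinearMap)
      = ((incl j hj).toContinuousLinearMap) ∘L (rho x) := by
    refine IsoFrame.op_ext fun h => ?_
    change rho (j x) (incl j hj (dl h)) = incl j hj (rho x (dl h))
    rw [incl_dl, rho_dl, rho_dl, incl_dl, map_mul]
  exact congrArg (fun A : Ell2 H →L[ℂ] Ell2 K => A ξ) h2

theorem inner_rho (k l : K) (ξ η : Ell2 K) : ⟪rho k ξ, rho l η⟫_ℂ = ⟪ξ, rho (l * k⁻¹) η⟫_ℂ := by
  have h1 : rho l η = rho k (rho (l * k⁻¹) η) := by
    ext h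
    rw [rho_apply, rho_apply, rho_apply]
    congr 1
    group
  rw [h1]
  exact inner_permOp _ _ _

open Classical in
theorem UV_of_unitary {U : unitary (BH H)} (hU : (U : BH H) ∈ LG H) :
    ∀ x : H, ⟪(U : BH H) (dl 1), rho x ((U : BH H) (dl 1))⟫_ℂ = if x = 1 then 1 else 0 := by
  intro x
  have h1 : rho x ((U : BH H) (dl 1)) = (U : BH H) (dl x) := (LG_apply_dl hU x).symm
  rw [h1]
  have h2 : ⟪(U : BH H) (dl 1), (U : BH H) (dl x)⟫_ℂ = ⟪dl 1, dl x⟫_ℂ := by
    have h3 : ((star (U : BH H)) * (U : BH H)) = 1 := Unitary.coe_star_mul_self U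
    rw [← ContinuousLinearMap.adjoint_inner_right, ← ContinuousLinearMap.star_eq_adjoint]
    have h4 : (star (U : BH H)) ((U : BH H) (dl x)) = dl x :=
      congrArg (fun A : BH H => A (dl x)) h3
    rw [h4]
  rw [h2, inner_dl, dl_apply]
  by_cases h : x = 1
  · rw [if_pos h, if_pos h.symm]
  · rw [if_neg h, if_neg (fun h' => h h'.symm)]

theorem orthonormal_amp {U : unitary (BH H)} (hU : (U : BH H) ∈ LG H) :
    Orthonormal ℂ (fun k : K => rho k (incl j hj ((U : BH H) (dl 1)))) := by
  classical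
  rw [orthonormal_iff_ite]
  intro k l
  rw [inner_rho]
  by_cases hx : ∃ x, j x = l * k⁻¹
  · obtain ⟨x, hx⟩ := hx
    rw [← hx, rho_incl, LinearIsometry.inner_map_map, UV_of_unitary hU]
    by_cases h : k = l
    · rw [if_pos h, if_pos]
      rw [h, mul_inv_cancel] at hx
      exact hj (hx.trans (map_one j).symm)
    · rw [if_neg h, if_neg]
      intro h1
      rw [h1, map_one] at hx
      exact h (mul_inv_eq_one.mp hx.symm).symm
  · push Not at hx
    have hkl : k ≠ l := by
      intro h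
      apply hx 1
      rw [h, mul_inv_cancel, map_one]
    rw [if_neg hkl, lp.inner_eq_tsum]
    have h0 : ∀ g : K, ⟪(incl j hj ((U : BH H) (dl 1))) g,
        (rho (l * k⁻¹) (incl j hj ((U : BH H) (dl 1)))) g⟫_ℂ = 0 := by
      intro g
      by_cases hg : ∃ a, j a = g
      · obtain ⟨a, rfl⟩ := hg
        have h1 : (rho (l * k⁻¹) (incl j hj ((U : BH H) (dl 1)))) (j a) = 0 := by
          rw [rho_apply]
          refine incl_apply_of_notMem j hj _ fun b hb => ?_
          apply hx (b⁻¹ * a)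
          rw [map_mul, map_inv, hb]
          group
        rw [h1, inner_zero_right]
      · push Not at hg
        rw [incl_apply_of_notMem j hj _ hg, inner_zero_left]
    simp only [h0, tsum_zero]

/-- The amplification of a unitary of `L(H)` to `L(K)`. -/
noncomputable def ampOp {U : unitary (BH H)} (hU : (U : BH H) ∈ LG H) : BH K :=
  (isoOf _ (orthonormal_amp j hj hU)).toContinuousLinearMap

theorem ampOp_dl {U : unitary (BH H)} (hU : (U : BH H) ∈ LG H) (k : K) :
    ampOp j hj hU (dl k) = rho k (incl j hj ((U : BH H) (dl 1))) :=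
  isoOf_dl _ (orthonormal_amp j hj hU) k

theorem rho_comp (g k : K) (ξ : Ell2 K) : rho g (rho k ξ) = rho (k * g) ξ := by
  ext h
  rw [rho_apply, rho_apply, rho_apply]
  congr 1
  group

theorem ampOp_rho {U : unitary (BH H)} (hU : (U : BH H) ∈ LG H) (g : K) :
    ampOp j hj hU * rho g = rho g * ampOp j hj hU := by
  refine IsoFrame.op_ext fun k => ?_
  change ampOp j hj hU (rho g (dl k)) = rho g (ampOp j hj hU (dl k))
  rw [rho_dl, ampOp_dl, ampOp_dl, rho_comp]

theorem ampOp_mem {U : unitary (BH H)} (hU : (U : BH H) ∈ LG H) : ampOp j hj hU ∈ LG K :=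
  mem_LG_of_comm_rho _ (ampOp_rho j hj hU)

theorem ampOp_incl {U : unitary (BH H)} (hU : (U : BH H) ∈ LG H) (ξ : Ell2 H) :
    ampOp j hj hU (incl j hj ξ) = incl j hj ((U : BH H) ξ) := by
  have h2 : (ampOp j hj hU) ∘L ((incl j hj).toContinuousLinearMap)
      = ((incl j hj).toContinuousLinearMap) ∘L (U : BH H) := by
    refine IsoFrame.op_ext fun h => ?_
    change ampOp j hj hU (incl j hj (dl h)) = incl j hj ((U : BH H) (dl h))
    rw [incl_dl, ampOp_dl, rho_incl, ← LG_apply_dl hU]
  exact congrArg (fun A : Ell2 H →L[ℂ] Ell2 K => A ξ) h2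

theorem ampOp_mul {U V W : unitary (BH H)} (hU : (U : BH H) ∈ LG H) (hV : (V : BH H) ∈ LG H)
    (hW : (W : BH H) ∈ LG H) (h : U * V = W) :
    ampOp j hj hU * ampOp j hj hV = ampOp j hj hW := by
  refine IsoFrame.op_ext fun k => ?_
  change ampOp j hj hU (ampOp j hj hV (dl k)) = ampOp j hj hW (dl k)
  rw [ampOp_dl, ampOp_dl]
  have h1 : ampOp j hj hU (rho k (incl j hj ((V : BH H) (dl 1)))) =
      rho k (ampOp j hj hU (incl j hj ((V : BH H) (dl 1)))) :=
    congrArg (fun A : BH K => A (incl j hj ((V : BH H) (dl 1)))) (ampOp_rho j hj hU k)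
  rw [h1, ampOp_incl, ← h]
  rfl

theorem ampOp_one {U : unitary (BH H)} (hU : (U : BH H) ∈ LG H) (h : U = 1) :
    ampOp j hj hU = 1 := by
  refine IsoFrame.op_ext fun k => ?_
  rw [ampOp_dl, h]
  change rho k (incl j hj (dl 1)) = dl k
  rw [incl_dl, map_one, rho_dl, one_mul]

/-- The amplified representation. -/
noncomputable def amp (σ : M →* unitary (BH H)) (hσ : ∀ m, (σ m : BH H) ∈ LG H) :
    M →* unitary (BH K) where
  toFun m := ⟨ampOp j hj (hσ m), by
    have h1 : star (ampOp j hj (hσ m)) * ampOp j hj (hσ m) = 1 := by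
      rw [ContinuousLinearMap.star_eq_adjoint]
      exact ((ContinuousLinearMap.norm_map_iff_adjoint_comp_self _).mp fun ξ =>
        LinearIsometry.norm_map _ ξ)
    have h2 : ampOp j hj (hσ m) * ampOp j hj (hσ m⁻¹) = 1 := by
      rw [ampOp_mul j hj (hσ m) (hσ m⁻¹) (hσ 1) (by rw [← map_mul, mul_inv_cancel]),
        ampOp_one j hj _ (map_one σ)]
    have h3 : star (ampOp j hj (hσ m)) = ampOp j hj (hσ m⁻¹) := by
      calc star (ampOp j hj (hσ m)) = star (ampOp j hj (hσ m)) *
          (ampOp j hj (hσ m) * ampOp j hj (hσ m⁻¹)) := by rw [h2, mul_one]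
        _ = ampOp j hj (hσ m⁻¹) := by rw [← mul_assoc, h1, one_mul]
    exact ⟨h1, by rw [h3, h2]⟩⟩
  map_one' := Subtype.ext (ampOp_one j hj (hσ 1) (map_one σ))
  map_mul' m n := Subtype.ext (ampOp_mul j hj (hσ m) (hσ n) (hσ (m * n)) (map_mul σ m n).symm).symm

theorem amp_coe (σ : M →* unitary (BH H)) (hσ : ∀ m, (σ m : BH H) ∈ LG H) (m : M) :
    (amp j hj σ hσ m : BH K) = ampOp j hj (hσ m) := rfl

theorem repAlg_amp_dl (σ : M →* unitary (BH H)) (hσ : ∀ m, (σ m : BH H) ∈ LG H) (P : CG M) :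
    repAlg (amp j hj σ hσ) P (dl 1) = incl j hj (repAlg σ P (dl 1)) := by
  rw [repAlg_apply, repAlg_apply, sum_apply, sum_apply, map_sum]
  refine Finset.sum_congr rfl fun m _ => ?_
  change P.coeff m • (amp j hj σ hσ m : BH K) (dl 1) = incl j hj (P.coeff m • (σ m : BH H) (dl 1))
  rw [map_smul, amp_coe, ampOp_dl]
  congr 1
  ext h
  rw [rho_apply, inv_one, mul_one]

end amp

end Vale.Agent.P086.H677
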