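import Vale.Agent.P086.H677.Powers

/-!
The classification of the free group factors `L(F_α)` over all index sets `α`: an arbitrary
(algebraic) `*`-isomorphism preserves the trace if `α` is infinite, hence the dimension of `ℓ²`.
-/

set_option linter.all false

open scoped InnerProductSpace

namespace Vale.Agent.P086.H677

open Vale.Agent.P086

variable {G K : Type} [Group G] [Group K]

/-- The standard realization of `ℓ²(G)`. -/
noncomputable def stdB (G : Type) : HilbertBasis G ℂ (Ell2 G) :=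
  HilbertBasis.ofRepr (LinearIsometryEquiv.refl ℂ _)

theorem groupVN_std (G : Type) [Group G] : FF.GroupVN (stdB G) = {x | x ∈ LG G} := by
  ext x
  rw [FF.mem_GroupVN_iff]
  have : FF.Ph (stdB G) x = x := by
    ext1 ξ
    rfl
  rw [this]
  rfl

theorem zero_mem_S (G : Type) [Group G] : (0 : BH G) ∈ {x : BH G | x ∈ LG G} :=
  zero_mem (LG G)

theorem one_mem_S (G : Type) [Group G] : (1 : BH G) ∈ {x : BH G | x ∈ LG G} :=
  one_mem (LG G)

/-- The trace. -/
noncomputable def tau (T : BH G) : ℂ := (T (dl 1)) 1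

theorem norm_tau_le (T : BH G) : ‖tau T‖ ≤ ‖T‖ := by
  refine (lp.norm_apply_le_norm (by norm_num) _ _).trans ?_
  refine (T.le_opNorm _).trans ?_
  rw [norm_dl, mul_one]

theorem tau_star_mul (A B : BH G) : tau (star A * B) = ⟪A (dl 1), B (dl 1)⟫_ℂ := by
  rw [tau, ← inner_dl]
  change ⟪dl 1, (star A) (B (dl 1))⟫_ℂ = _
  rw [ContinuousLinearMap.star_eq_adjoint, ContinuousLinearMap.adjoint_inner_right]

theorem tau_mul {A B : BH G} (hA : A ∈ LG G) (hB : B ∈ LG G) :
    tau (A * B) = ∑' g : G, (A (dl 1)) g⁻¹ * (B (dl 1)) g := by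
  have h1 : A * B = star (star A) * B := by rw [star_star]
  rw [h1, tau_star_mul, lp.inner_eq_tsum]
  refine tsum_congr fun g => ?_
  rw [star_dl_apply hA, RCLike.inner_apply, RingHomCompTriple.comp_apply, RingHom.id_apply,
    mul_comm]

theorem tau_comm {A B : BH G} (hA : A ∈ LG G) (hB : B ∈ LG G) : tau (A * B) = tau (B * A) := by
  rw [tau_mul hA hB, tau_mul hB hA, ← Equiv.tsum_eq (Equiv.inv G)]
  refine tsum_congr fun g => ?_
  rw [Equiv.inv_apply, inv_inv, mul_comm]

section hom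

variable {θ : BH G → BH K}

/-- `*`-isomorphism as a homomorphism of C*-algebras. -/
noncomputable def homOf (h : FF.IsStarIso θ {x | x ∈ LG G} {x | x ∈ LG K}) :
    LG G →⋆ₙₐ[ℂ] LG K where
  toFun x := ⟨θ x, h.bij.mapsTo x.2⟩
  map_smul' c x := Subtype.ext (h.smul c x x.2)
  map_zero' := Subtype.ext (by
    have := h.smul 0 0 (zero_mem_S G)
    simpa using this)
  map_add' x y := Subtype.ext (h.add _ x.2 _ y.2)
  map_mul' x y := Subtype.ext (h.mul _ x.2 _ y.2)
  map_star' x := Subtype.ext (h.star _ x.2)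

theorem norm_le (h : FF.IsStarIso θ {x | x ∈ LG G} {x | x ∈ LG K}) {T : BH G} (hT : T ∈ LG G) :
    ‖θ T‖ ≤ ‖T‖ := by
  haveI h1 : IsClosed ((LG G : StarSubalgebra ℂ (BH G)) : Set (BH G)) := isClosed_LG
  haveI h2 : IsClosed ((LG K : StarSubalgebra ℂ (BH K)) : Set (BH K)) := isClosed_LG
  letI i1 : CStarAlgebra (LG G) := StarSubalgebra.cstarAlgebra (LG G)
  letI i2 : CStarAlgebra (LG K) := StarSubalgebra.cstarAlgebra (LG K)
  exact NonUnitalStarAlgHom.norm_apply_le (homOf h) (⟨T, hT⟩ : LG G)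

theorem map_one' (h : FF.IsStarIso θ {x | x ∈ LG G} {x | x ∈ LG K}) : θ 1 = 1 := by
  obtain ⟨x, hx, hx1⟩ := h.bij.surjOn (one_mem_S K)
  have h1 := h.mul 1 (one_mem_S G) x hx
  rw [one_mul, hx1, mul_one] at h1
  exact h1.symm

theorem map_sum' (h : FF.IsStarIso θ {x | x ∈ LG G} {x | x ∈ LG K}) {ι : Type} (s : Finset ι)
    (T : ι → BH G) (hT : ∀ i ∈ s, T i ∈ LG G) : θ (∑ i ∈ s, T i) = ∑ i ∈ s, θ (T i) := by
  classical
  induction s using Finset.induction_on with
  | empty =>
    have := h.smul 0 0 (zero_mem_S G)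
    simpa using this
  | insert i s hi ih =>
    rw [Finset.sum_insert hi, Finset.sum_insert hi,
      h.add _ (hT i (Finset.mem_insert_self i s)) _
        (sum_mem fun j hj => hT j (Finset.mem_insert_of_mem hj)),
      ih fun j hj => hT j (Finset.mem_insert_of_mem hj)]

/-- a `*`-isomorphism pulls back the trace to a functional invariant under conjugation. -/
theorem tau_conj (h : FF.IsStarIso θ {x | x ∈ LG G} {x | x ∈ LG K}) (x g : G) :
    tau (θ (lam (x * g * x⁻¹))) = tau (θ (lam g)) := by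
  have hm : ∀ g, θ (lam g) ∈ LG K := fun g => h.bij.mapsTo (lam_mem_LG g)
  rw [lam_mul, h.mul _ (lam_mem_LG _) _ (lam_mem_LG _), tau_comm (hm _) (hm _),
    ← h.mul _ (lam_mem_LG _) _ (lam_mem_LG _), ← lam_mul, inv_mul_cancel_left]

end hom

theorem tau_zero {α : Type} [Infinite α] {θ : BH (FreeGroup α) → BH K}
    (h : FF.IsStarIso θ {x | x ∈ LG (FreeGroup α)} {x | x ∈ LG K}) {g : FreeGroup α}
    (hg : g ≠ 1) : tau (θ (lam g)) = 0 := by
  classical
  set z := tau (θ (lam g)) with hz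
  have key : ∀ n : ℕ, (n : ℝ) * ‖z‖ ≤ 2 * Real.sqrt n := by
    intro n
    set L : Finset α := ((@FreeGroup.toWord α (Classical.decEq α) g).map Prod.fst).toFinset with hL
    have hinf : (L : Set α)ᶜ.Infinite := Set.Finite.infinite_compl (Finset.finite_toSet L)
    obtain ⟨s, hs, hcard⟩ := hinf.exists_subset_card_eq n
    have hx : ∀ x ∈ s, ∀ b ∈ (@FreeGroup.toWord α (Classical.decEq α) g), b.1 ≠ x := by
      intro x hx b hb hbx
      have h1 := hs hx
      apply h1
      rw [Finset.mem_coe, hL, List.mem_toFinset, List.mem_map]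
      exact ⟨b, hb, hbx⟩
    have h1 := powers s (fun x => FreeGroup.of x * g * (FreeGroup.of x)⁻¹) Dx
      (fun i _ j _ w hi hj => Dx_disj hi hj) (fun x hxs w hw => conj_mem hg (hx x hxs) hw)
    have hm : ∀ x ∈ s, lam (FreeGroup.of x * g * (FreeGroup.of x)⁻¹) ∈ LG (FreeGroup α) :=
      fun x _ => lam_mem_LG _
    have h2 : tau (θ (∑ x ∈ s, lam (FreeGroup.of x * g * (FreeGroup.of x)⁻¹))) = n * z := by
      rw [map_sum' h s _ hm]
      have h3 : tau (∑ x ∈ s, θ (lam (FreeGroup.of x * g * (FreeGroup.of x)⁻¹))) =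
          ∑ x ∈ s, tau (θ (lam (FreeGroup.of x * g * (FreeGroup.of x)⁻¹))) := by
        rw [tau, ContinuousLinearMap.sum_apply, lp.coeFn_sum, Finset.sum_apply]
        rfl
      rw [h3, Finset.sum_congr rfl fun x _ => tau_conj h (FreeGroup.of x) g, Finset.sum_const,
        nsmul_eq_mul, hcard]
    have h4 := (norm_tau_le (θ (∑ x ∈ s, lam (FreeGroup.of x * g * (FreeGroup.of x)⁻¹)))).trans
      ((norm_le h (sum_mem hm)).trans h1)
    rw [h2, norm_mul, hcard, Complex.norm_natCast] at h4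
    exact h4
  by_contra hne
  have hpos : 0 < ‖z‖ := norm_pos_iff.mpr hne
  obtain ⟨n, hn⟩ := exists_nat_gt (4 / ‖z‖ ^ 2)
  have hn0 : 0 < (n : ℝ) := lt_of_le_of_lt (by positivity) hn
  have h1 := key n
  have h2 : (Real.sqrt n) * (Real.sqrt n * ‖z‖) ≤ Real.sqrt n * 2 := by
    calc (Real.sqrt n) * (Real.sqrt n * ‖z‖) = (Real.sqrt n * Real.sqrt n) * ‖z‖ := by ring
      _ = n * ‖z‖ := by rw [Real.mul_self_sqrt hn0.le]
      _ ≤ 2 * Real.sqrt n := h1
      _ = Real.sqrt n * 2 := mul_comm _ _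
  have h3 := le_of_mul_le_mul_left h2 (Real.sqrt_pos.mpr hn0)
  have h4 : (Real.sqrt n * ‖z‖) ^ 2 ≤ 4 := by
    have : 0 ≤ Real.sqrt n * ‖z‖ := by positivity
    nlinarith
  rw [mul_pow, Real.sq_sqrt hn0.le] at h4
  rw [div_lt_iff₀ (by positivity)] at hn
  linarith

theorem orthonormal_image {α : Type} [Infinite α] {θ : BH (FreeGroup α) → BH K}
    (h : FF.IsStarIso θ {x | x ∈ LG (FreeGroup α)} {x | x ∈ LG K}) :
    Orthonormal ℂ (fun g : FreeGroup α => (θ (lam g)) (dl (1 : K))) := by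
  classical
  rw [orthonormal_iff_ite]
  intro g k
  rw [← tau_star_mul, ← h.star _ (lam_mem_LG _), ← h.mul _ (star_mem (lam_mem_LG _)) _
    (lam_mem_LG _), star_lam, ← lam_mul]
  split_ifs with hgk
  · rw [hgk, inv_mul_cancel, lam_one, map_one' h]
    change (dl (1 : K) : Ell2 K) 1 = 1
    rw [dl_apply, if_pos rfl]
  · exact tau_zero h fun h1 => hgk (inv_mul_eq_one.mp h1)

open Cardinal in
theorem mk_le_of_orthonormal {I X : Type} {v : I → Ell2 X} (hv : Orthonormal ℂ v) :
    #I ≤ #X * ℵ₀ := by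
  classical
  have hex : ∀ i : I, ∃ x : X, v i x ≠ 0 := by
    intro i
    by_contra hcon
    push Not at hcon
    have h0 : v i = 0 := by
      ext x
      exact hcon x
    have h1 := hv.1 i
    rw [h0, norm_zero] at h1
    exact zero_ne_one h1
  choose p hp using hex
  have hc : ∀ x : X, Countable {i : I | v i x ≠ 0} := by
    intro x
    have h1 := (hv.inner_products_summable (dl x)).countable_support
    refine (h1.mono fun i hi => ?_).to_subtype
    rw [Function.mem_support, inner_dl_right]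
    have : v i x ≠ 0 := hi
    simpa using this
  choose f hf using fun x => (hc x).exists_injective_nat
  have hinj : Function.Injective (fun i : I => (p i, f (p i) ⟨i, hp i⟩)) := by
    intro i j hij
    have h1 : p i = p j := congrArg Prod.fst hij
    have h2 : f (p i) ⟨i, hp i⟩ = f (p j) ⟨j, hp j⟩ := congrArg Prod.snd hij
    have h3 : f (p j) ⟨i, by rw [← h1]; exact hp i⟩ = f (p j) ⟨j, hp j⟩ := by
      rw [← h2]
      congr 1 <;> first | exact h1.symm | skip
      all_goals grind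
    exact congrArg Subtype.val (hf _ h3)
  have h4 := Cardinal.mk_le_of_injective hinj
  rwa [Cardinal.mk_prod, Cardinal.lift_id, Cardinal.lift_id, Cardinal.mk_nat] at h4

end Vale.Agent.P086.H677
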