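import Vale.Agent.P086.H677.Classify
import Mathlib.SetTheory.Cardinal.Free

/-!
The classification of the free group factors `L(F_α)` over all index sets `α` with at least two
elements.
-/

set_option linter.all false

open scoped InnerProductSpace Cardinal

namespace Vale.Agent.P086.H677

open Vale.Agent.P086

theorem isomorphic_of_spIso {G H : Type} [Group G] [Group H] (h : SpIso G H) :
    FF.Isomorphic G H := by
  intro E F _ _ _ _ _ _ e f
  obtain ⟨U, -, hU⟩ := FF.exists_unitary_of_spIso h e f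
  refine ⟨fun x => U.conjStarAlgEquiv x, ⟨⟨fun x hx => (hU x).1 hx, ?_, ?_⟩, ?_, ?_, ?_, ?_⟩⟩
  · exact U.conjStarAlgEquiv.injective.injOn
  · intro y hy
    refine ⟨U.conjStarAlgEquiv.symm y, ?_, StarAlgEquiv.apply_symm_apply _ _⟩
    rw [hU, StarAlgEquiv.apply_symm_apply]
    exact hy
  · exact fun x _ y _ => map_add _ x y
  · exact fun x _ y _ => map_mul _ x y
  · exact fun c x _ => map_smul _ c x
  · exact fun x _ => map_star _ x

variable {G K : Type} [Group G] [Group K]

theorem std_of_isomorphic (h : FF.Isomorphic G K) :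
    ∃ θ : BH G → BH K, FF.IsStarIso θ {x | x ∈ LG G} {x | x ∈ LG K} := by
  obtain ⟨θ, hθ⟩ := h (Ell2 G) (Ell2 K) (stdB G) (stdB K)
  rw [groupVN_std, groupVN_std] at hθ
  exact ⟨θ, hθ⟩

theorem inv_iso {θ : BH G → BH K} (h : FF.IsStarIso θ {x | x ∈ LG G} {x | x ∈ LG K}) :
    ∃ θ' : BH K → BH G, FF.IsStarIso θ' {x | x ∈ LG K} {x | x ∈ LG G} := by
  classical
  have hsur := h.bij.surjOn
  let θ' : BH K → BH G := Function.invFunOn θ {x | x ∈ LG G}
  have hm : ∀ y ∈ LG K, θ' y ∈ LG G := fun y hy => Function.invFunOn_mem (hsur hy)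
  have hr : ∀ y ∈ LG K, θ (θ' y) = y := fun y hy => Function.invFunOn_eq (hsur hy)
  have hinj := h.bij.injOn
  refine ⟨θ', ⟨⟨fun y hy => hm y hy, fun y hy z hz hyz => ?_, fun x hx => ?_⟩,
    fun y hy z hz => ?_, fun y hy z hz => ?_, fun c y hy => ?_, fun y hy => ?_⟩⟩
  · rw [← hr y hy, ← hr z hz, hyz]
  · refine ⟨θ x, h.bij.mapsTo hx, ?_⟩
    exact hinj (hm _ (h.bij.mapsTo hx)) hx (hr _ (h.bij.mapsTo hx))
  · refine hinj (hm _ (add_mem (S := StarSubalgebra ℂ (BH K)) hy hz))
      (add_mem (S := StarSubalgebra ℂ (BH G)) (hm y hy) (hm z hz)) ?_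
    rw [h.add _ (hm y hy) _ (hm z hz), hr y hy, hr z hz]
    exact hr _ (add_mem (S := StarSubalgebra ℂ (BH K)) hy hz)
  · refine hinj (hm _ (mul_mem (S := StarSubalgebra ℂ (BH K)) hy hz))
      (mul_mem (S := StarSubalgebra ℂ (BH G)) (hm y hy) (hm z hz)) ?_
    rw [h.mul _ (hm y hy) _ (hm z hz), hr y hy, hr z hz]
    exact hr _ (mul_mem (S := StarSubalgebra ℂ (BH K)) hy hz)
  · refine hinj (hm _ ((LG K).smul_mem hy c)) ((LG G).smul_mem (hm y hy) c) ?_
    rw [h.smul c _ (hm y hy), hr y hy]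
    exact hr _ ((LG K).smul_mem hy c)
  · refine hinj (hm _ (star_mem (S := StarSubalgebra ℂ (BH K)) hy))
      (star_mem (S := StarSubalgebra ℂ (BH G)) (hm y hy)) ?_
    rw [h.star _ (hm y hy), hr y hy]
    exact hr _ (star_mem (S := StarSubalgebra ℂ (BH K)) hy)

theorem mk_le_of_iso {α β : Type} [Infinite α] [Nonempty β]
    {θ : BH (FreeGroup α) → BH (FreeGroup β)}
    (h : FF.IsStarIso θ {x | x ∈ LG (FreeGroup α)} {x | x ∈ LG (FreeGroup β)}) :
    #α ≤ max #β ℵ₀ := by
  have h1 := mk_le_of_orthonormal (orthonormal_image h)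
  rw [Cardinal.mk_freeGroup, Cardinal.mk_freeGroup, Cardinal.mul_aleph0_eq (le_max_right _ _)] at h1
  exact (le_max_left _ _).trans h1

theorem mk_le_of_uncountable {α β : Type} [Nonempty β] (hα : ¬ Countable α)
    (h : FF.Isomorphic (FreeGroup α) (FreeGroup β)) : #α ≤ #β := by
  have : Infinite α := by
    by_contra hfin
    rw [not_infinite_iff_finite] at hfin
    exact hα inferInstance
  obtain ⟨θ, hθ⟩ := std_of_isomorphic h
  have h1 := mk_le_of_iso hθ
  have h2 : ℵ₀ < #α := by
    rw [← not_le, Cardinal.mk_le_aleph0_iff]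
    exact hα
  rcases le_max_iff.mp h1 with h3 | h3
  · exact h3
  · exact absurd h3 (not_le.mpr h2)

theorem mk_le_of_uncountable' {α β : Type} [Nonempty α] (hβ : ¬ Countable β)
    (h : FF.Isomorphic (FreeGroup α) (FreeGroup β)) : #β ≤ #α := by
  have : Infinite β := by
    by_contra hfin
    rw [not_infinite_iff_finite] at hfin
    exact hβ inferInstance
  obtain ⟨θ, hθ⟩ := std_of_isomorphic h
  obtain ⟨θ', hθ'⟩ := inv_iso hθ
  have h1 := mk_le_of_iso hθ'
  have h2 : ℵ₀ < #β := by
    rw [← not_le, Cardinal.mk_le_aleph0_iff]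
    exact hβ
  rcases le_max_iff.mp h1 with h3 | h3
  · exact h3
  · exact absurd h3 (not_le.mpr h2)

/-- Complete classification: for index sets with at least two elements, `L(F_α) ≅ L(F_β)` if and
only if `α`, `β` have the same cardinality or both are countable. -/
theorem classification (α β : Type) [Nontrivial α] [Nontrivial β] :
    FF.Isomorphic (FreeGroup α) (FreeGroup β) ↔ (#α = #β ∨ (Countable α ∧ Countable β)) := by
  constructor
  · intro h
    by_cases hα : Countable α
    · by_cases hβ : Countable β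
      · exact Or.inr ⟨hα, hβ⟩
      · have h1 := mk_le_of_uncountable' hβ h
        refine absurd ?_ hβ
        rw [← Cardinal.mk_le_aleph0_iff] at hα ⊢
        exact h1.trans hα
    · have h1 := mk_le_of_uncountable hα h
      have hβ : ¬ Countable β := by
        intro hβ
        apply hα
        rw [← Cardinal.mk_le_aleph0_iff] at hβ ⊢
        exact h1.trans hβ
      exact Or.inl (le_antisymm h1 (mk_le_of_uncountable' hβ h))
  · rintro (h | ⟨hα, hβ⟩)
    · obtain ⟨e⟩ := Cardinal.eq.mp h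
      exact isomorphic_of_spIso (spIso_of_equiv e)
    · exact isomorphic_of_spIso (spIso_all α β)

end Vale.Agent.P086.H677
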