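import Vale.Agent.P086.FF.St

/-!
Definitions used in the statement of `P086.AllRanks`: free generating pairs of `L(F_α)`.
-/

namespace Vale.Agent.P086.H677

open Vale.Agent.P086

variable {E : Type} [NormedAddCommGroup E] [InnerProductSpace ℂ E] [CompleteSpace E]

/-- `π` is a unitary representation of the free group on two letters on `E`. -/
structure IsRep (π : FreeGroup Bool → E →L[ℂ] E) : Prop where
  one : π 1 = 1
  mul : ∀ w w', π (w * w') = π w * π w'
  norm : ∀ w ξ, ‖π w ξ‖ = ‖ξ‖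

/-- The operator `y` commutes with all `π(w)`. -/
def Commutes (π : FreeGroup Bool → E →L[ℂ] E) (y : E →L[ℂ] E) : Prop :=
  ∀ w, π w * y = y * π w

/-- The operator `x` is in the bicommutant of the operators `π(w)`. -/
def InBicommutant (π : FreeGroup Bool → E →L[ℂ] E) (x : E →L[ℂ] E) : Prop :=
  ∀ y, Commutes π y → x * y = y * x

/-- The operators `v`, `u` on `ℓ²(F_α)` are unitaries, free and Haar distributed, which generate
`L(F_α)`: `π` is the unitary representation of the free group on two letters `x₀`, `x₁` with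
`π(x₀) = v`, `π(x₁) = u`; the trace `⟨π(w) δ₁, δ₁⟩` vanishes for every `w ≠ 1`; and `L(F_α)` is
the bicommutant of the operators `π(w)`. -/
def IsFreeGeneratingPair {α : Type} (e : HilbertBasis (FreeGroup α) ℂ E) (v u : E →L[ℂ] E) :
    Prop :=
  ∃ π : FreeGroup Bool → E →L[ℂ] E, IsRep π ∧
    π (FreeGroup.of false) = v ∧ π (FreeGroup.of true) = u ∧
    (∀ w, w ≠ 1 → inner ℂ (e 1) (π w (e 1)) = 0) ∧
    ∀ x, x ∈ FF.GroupVN e ↔ InBicommutant π x

/-- In every realization of `ℓ²(F_α)` the operator `v = λ(a)` is part of a free generating pair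
`v`, `u` of `L(F_α)` with `‖u - λ(b)‖₂ = ‖u δ₁ - δ_b‖ ≤ ε`. -/
def HasPairNear {α : Type} (a b : α) (ε : ℝ) : Prop :=
  ∀ (E : Type) [NormedAddCommGroup E] [InnerProductSpace ℂ E] [CompleteSpace E]
    (e : HilbertBasis (FreeGroup α) ℂ E),
    ∃ v u : E →L[ℂ] E, FF.IsLam e (FreeGroup.of a) v ∧
      ‖u (e 1) - e (FreeGroup.of b)‖ ≤ ε ∧ IsFreeGeneratingPair e v u

end Vale.Agent.P086.H677
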