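import Vale.Agent.P086.H677.Amp

/-!
Free products: a family of frames `H i → U(L(H' i))` gives a frame of the free product of the
`H i` in the von Neumann algebra of the free product of the `H' i`.
-/

set_option linter.all false

open scoped InnerProductSpace

namespace Vale.Agent.P086.H677

open Vale.Agent.P086
open ContinuousLinearMap Monoid

section fp

variable {ι : Type} [DecidableEq ι] {H H' : ι → Type} [∀ i, Group (H i)] [∀ i, Group (H' i)]
  [∀ i, DecidableEq (H i)] [∀ i, DecidableEq (H' i)]

/-- the elements of the free product whose reduced word starts in the factor `o` -/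
def St (o : Option ι) : Set (CoprodI H') := {k | (CoprodI.Word.equiv k).fstIdx = o}

theorem one_mem_St : (1 : CoprodI H') ∈ St (H' := H') none := by
  change (CoprodI.Word.equiv (1 : CoprodI H')).fstIdx = none
  have h : CoprodI.Word.equiv (1 : CoprodI H') = CoprodI.Word.empty := by
    change (1 : CoprodI H') • CoprodI.Word.empty = _
    rw [one_smul]
  rw [h]
  rfl

theorem one_notMem_St (i : ι) : (1 : CoprodI H') ∉ St (H' := H') (some i) := by
  intro h
  have h1 : (CoprodI.Word.equiv (1 : CoprodI H')).fstIdx = some i := h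
  have h2 : (CoprodI.Word.equiv (1 : CoprodI H')).fstIdx = none := one_mem_St
  rw [h2] at h1
  cases h1

theorem of_mul_mem_St {i : ι} {x : H' i} (hx : x ≠ 1) {k : CoprodI H'} (hk : k ∉ St (some i)) :
    CoprodI.of x * k ∈ St (H' := H') (some i) := by
  have hk' : (CoprodI.Word.equiv k).fstIdx ≠ some i := hk
  have h1 : (CoprodI.Word.cons x (CoprodI.Word.equiv k) hk' hx).prod = CoprodI.of x * k := by
    rw [CoprodI.Word.prod_cons]
    congr 1
    exact CoprodI.Word.equiv.symm_apply_apply k
  change (CoprodI.Word.equiv (CoprodI.of x * k)).fstIdx = some i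
  rw [← h1]
  have h2 : CoprodI.Word.equiv (CoprodI.Word.cons x (CoprodI.Word.equiv k) hk' hx).prod =
      CoprodI.Word.cons x (CoprodI.Word.equiv k) hk' hx :=
    CoprodI.Word.equiv.apply_symm_apply (CoprodI.Word.cons x (CoprodI.Word.equiv k) hk' hx)
  rw [h2, CoprodI.Word.fstIdx_cons]

/-- Supports and bounded operators. -/
theorem supp_apply {X : Type} (T : BH X) (A B : Set X)
    (hT : ∀ k ∉ A, ∀ l ∉ B, (T (dl k)) l = 0) (ξ : Ell2 X) (hξ : ∀ k ∈ A, ξ k = 0) (l : X)
    (hl : l ∉ B) : (T ξ) l = 0 := by
  have h1 := T.hasSum (IsoFrame.hasSum_dl ξ)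
  have h2 := (innerSL ℂ (dl l : Ell2 X)).hasSum h1
  have h3 : ∀ x, (innerSL ℂ (dl l : Ell2 X)) (T (ξ x • (dl x : Ell2 X))) = 0 := by
    intro x
    rw [map_smul, innerSL_apply_apply, inner_smul_right, inner_dl]
    by_cases hx : x ∈ A
    · rw [hξ x hx, zero_mul]
    · rw [hT x hx l hl, mul_zero]
  simp only [Function.comp_def, h3] at h2
  have h4 := h2.unique hasSum_zero
  rw [innerSL_apply_apply, inner_dl] at h4
  exact h4

variable (σ : ∀ i, H i →* unitary (BH (H' i))) (hσ : ∀ i, Frame (σ i))

/-- The free product representation. -/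
noncomputable def fp : CoprodI H →* unitary (BH (CoprodI H')) :=
  CoprodI.lift fun i => amp (CoprodI.of (i := i)) (CoprodI.of_injective i) (σ i) (hσ i).mem

theorem fp_of (i : ι) (m : H i) : (fp σ hσ (CoprodI.of m) : BH (CoprodI H')) =
    ampOp (CoprodI.of (i := i)) (CoprodI.of_injective i) ((hσ i).mem m) := by
  rw [fp, CoprodI.lift_of, amp_coe]

theorem fp_mem (w : CoprodI H) : (fp σ hσ w : BH (CoprodI H')) ∈ LG (CoprodI H') := by
  induction w using CoprodI.induction_on with
  | one => rw [map_one]; exact one_mem _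
  | of i m => rw [fp_of]; exact ampOp_mem _ _ _
  | mul x y hx hy => rw [map_mul]; exact mul_mem hx hy

theorem fp_support {i : ι} {m : H i} (hm : m ≠ 1) (k : CoprodI H') (hk : k ∉ St (some i))
    (l : CoprodI H') (hl : l ∉ St (some i)) :
    ((fp σ hσ (CoprodI.of m) : BH (CoprodI H')) (dl k)) l = 0 := by
  rw [fp_of, ampOp_dl, rho_apply]
  by_cases h : ∃ y : H' i, CoprodI.of y = l * k⁻¹
  · obtain ⟨y, hy⟩ := h
    rw [← hy, incl_apply]
    by_cases hy1 : y = 1
    · rw [hy1]
      exact (hσ i).tr m hm
    · exfalso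
      apply hl
      have : l = CoprodI.of y * k := by rw [hy]; group
      rw [this]
      exact of_mul_mem_St hy1 hk
  · push Not at h
    exact incl_apply_of_notMem _ _ _ h

theorem fp_word (w : CoprodI.Word H) : ∀ l : CoprodI H', l ∉ St w.fstIdx →
    ((fp σ hσ w.prod : BH (CoprodI H')) (dl 1)) l = 0 := by
  induction w using CoprodI.Word.consRecOn with
  | empty =>
    intro l hl
    rw [CoprodI.Word.prod_empty, map_one]
    change (dl (1 : CoprodI H') : Ell2 (CoprodI H')) l = 0
    classical
    rw [dl_apply, if_neg]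
    intro h
    apply hl
    rw [h]
    exact one_mem_St
  | cons i m w h1 h2 ih =>
    intro l hl
    rw [CoprodI.Word.fstIdx_cons] at hl
    rw [CoprodI.Word.prod_cons, map_mul]
    change ((fp σ hσ (CoprodI.of m) : BH (CoprodI H'))
      ((fp σ hσ w.prod : BH (CoprodI H')) (dl 1))) l = 0
    refine supp_apply _ (St (some i)) (St (some i)) (fp_support σ hσ h2) _ (fun k hk => ?_) l hl
    refine ih k fun hk' => h1 ?_
    have h3 : (CoprodI.Word.equiv k).fstIdx = some i := hk
    have h4 : (CoprodI.Word.equiv k).fstIdx = w.fstIdx := hk'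
    rw [← h4, h3]

theorem fp_tr (g : CoprodI H) (hg : g ≠ 1) :
    ((fp σ hσ g : BH (CoprodI H')) (dl 1)) 1 = 0 := by
  have hw : (CoprodI.Word.equiv g).prod = g := CoprodI.Word.equiv.symm_apply_apply g
  have h1 := fp_word σ hσ (CoprodI.Word.equiv g) 1
  rw [hw] at h1
  apply h1
  set w := CoprodI.Word.equiv g with hwdef
  intro h2
  have h3 : (CoprodI.Word.equiv (1 : CoprodI H')).fstIdx = w.fstIdx := h2
  have h4 : (CoprodI.Word.equiv (1 : CoprodI H')).fstIdx = none := one_mem_St
  rw [h4] at h3
  have h5 : w.toList = [] := by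
    have h6 : w.toList.head?.map Sigma.fst = none := h3.symm
    rw [Option.map_eq_none_iff, List.head?_eq_none_iff] at h6
    exact h6
  apply hg
  rw [← hw, CoprodI.Word.prod, h5]
  rfl

theorem fp_dense (g : CoprodI H') : ∀ ε > 0, ∃ P : CG (CoprodI H),
    ‖repAlg (fp σ hσ) P (dl 1) - dl g‖ < ε := by
  induction g using CoprodI.induction_left with
  | one =>
    intro ε hε
    refine ⟨1, ?_⟩
    rw [map_one]
    simpa using hε
  | mul m x ih =>
    rename_i i
    intro ε hε
    set j : H' i →* CoprodI H' := CoprodI.of (i := i) with hj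
    have hji : Function.Injective j := CoprodI.of_injective i
    obtain ⟨Q, hQ⟩ := (hσ i).dense (dl m) (ε / 2) (half_pos hε)
    set T : BH (CoprodI H') := repAlg (amp j hji (σ i) (hσ i).mem) Q with hT
    have hTm : T ∈ LG (CoprodI H') := by
      rw [hT, repAlg_apply]
      refine sum_mem fun g _ => (LG _).smul_mem ?_ _
      rw [amp_coe]
      exact ampOp_mem _ _ _
    have h1 : ‖(T - lam (j m)) (dl 1)‖ < ε / 2 := by
      have e1 : (T - lam (j m)) (dl 1) = incl j hji (repAlg (σ i) Q (dl 1) - dl m) := by
        rw [sub_apply, hT, repAlg_amp_dl, lam_dl, mul_one, map_sub, incl_dl]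
      rw [e1, LinearIsometry.norm_map]
      exact hQ
    have h2 : ‖(T - lam (j m)) (dl x)‖ < ε / 2 := by
      rw [lim_norm_sub_dl hTm (lam_mem_LG _), n2]
      exact h1
    obtain ⟨P, hP⟩ := ih (ε / 2 / (‖T‖ + 1)) (by positivity)
    refine ⟨MonoidAlgebra.mapDomainAlgHom ℂ ℂ (CoprodI.of (M := H) (i := i)) Q * P, ?_⟩
    have h3 : repAlg (fp σ hσ) (MonoidAlgebra.mapDomainAlgHom ℂ ℂ (CoprodI.of (M := H) (i := i)) Q)
        = T := by
      rw [← lim_repAlg_comp, hT]
      congr 1
    rw [map_mul, h3]
    have h4 : (T * repAlg (fp σ hσ) P) (dl 1) - dl (CoprodI.of m * x) =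
        T (repAlg (fp σ hσ) P (dl 1) - dl x) + (T - lam (j m)) (dl x) := by
      rw [map_sub, sub_apply, lam_dl]
      change T (repAlg (fp σ hσ) P (dl 1)) - _ = _
      abel
    rw [h4]
    have h5 : ‖T (repAlg (fp σ hσ) P (dl 1) - dl x)‖ ≤ ε / 2 := by
      refine (T.le_opNorm _).trans ?_
      calc ‖T‖ * ‖repAlg (fp σ hσ) P (dl 1) - dl x‖ ≤ (‖T‖ + 1) * (ε / 2 / (‖T‖ + 1)) := by
            gcongr
            linarith
        _ = ε / 2 := mul_div_cancel₀ _ (by positivity)
    refine (norm_add_le _ _).trans_lt ?_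
    linarith

/-- The free product of frames is a frame. -/
theorem frame_fp : Frame (fp σ hσ) where
  mem := fp_mem σ hσ
  tr := fp_tr σ hσ
  dense := lim_dense _ (fp_dense σ hσ)

end fp

/-- A spatial isomorphism gives a frame. -/
theorem frame_of_spIso {G K : Type} [Group G] [Group K] (h : SpIso G K) :
    ∃ σ : G →* unitary (BH K), Frame σ := by
  obtain ⟨W, h1, h2⟩ := h
  let Φ : BH G ≃⋆ₐ[ℂ] BH K := W.conjStarAlgEquiv
  have hΦ : ∀ (x : BH G) (ξ : Ell2 G), Φ x (W ξ) = W (x ξ) := by
    intro x ξ
    change W.conjStarAlgEquiv x (W ξ) = _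
    rw [LinearIsometryEquiv.conjStarAlgEquiv_apply_apply, LinearIsometryEquiv.symm_apply_apply]
  let σ : G →* unitary (BH K) :=
    { toFun := fun g => ⟨Φ (lamU g : BH G), by
        have hu := Unitary.mem_iff.mp (lamU g).2
        rw [Unitary.mem_iff, ← map_star, ← map_mul, ← map_mul, hu.1, hu.2, map_one]
        exact ⟨rfl, rfl⟩⟩
      map_one' := Subtype.ext (by
        change Φ ((lamU (1 : G) : unitary (BH G)) : BH G) = 1
        rw [map_one]
        exact map_one Φ)
      map_mul' := fun g k => Subtype.ext (by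
        change Φ ((lamU (g * k) : unitary (BH G)) : BH G) = Φ _ * Φ _
        rw [map_mul, ← map_mul Φ]
        rfl) }
  have hσ : ∀ g, (σ g : BH K) = Φ (lam g) := fun g => rfl
  have hv : ∀ P : CG G, repAlg σ P (dl 1) = W (repAlg lamU P (dl 1)) := by
    intro P
    rw [repAlg_apply, repAlg_apply, sum_apply, sum_apply, map_sum]
    refine Finset.sum_congr rfl fun g _ => ?_
    change P.coeff g • Φ (lam g) (dl 1) = W (P.coeff g • (lam g) (dl 1))
    rw [map_smul, ← h1, hΦ]
  refine ⟨σ, ⟨fun g => (h2 _).mp (lam_mem_LG g), fun g hg => ?_, fun ξ ε hε => ?_⟩⟩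
  · classical
    rw [hσ, ← h1, hΦ, lam_dl, mul_one, ← inner_dl, ← h1, LinearIsometryEquiv.inner_map_map,
      inner_dl, dl_apply, if_neg]
    exact fun h => hg h.symm
  · have hfr := frame_lam (MulEquiv.refl G)
    obtain ⟨P, hP⟩ := hfr.dense (W.symm ξ) ε hε
    refine ⟨P, ?_⟩
    rw [hv]
    have e : W (repAlg lamU P (dl 1)) - ξ = W (repAlg lamU P (dl 1) - W.symm ξ) := by
      rw [map_sub, LinearIsometryEquiv.apply_symm_apply]
    rw [e, LinearIsometryEquiv.norm_map]
    exact hP

/-- `L` respects free products of groups. -/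
theorem spIso_coprodI {ι : Type} {H H' : ι → Type} [∀ i, Group (H i)] [∀ i, Group (H' i)]
    (h : ∀ i, SpIso (H i) (H' i)) : SpIso (CoprodI H) (CoprodI H') := by
  classical
  choose σ hσ using fun i => frame_of_spIso (h i)
  exact spIso_of_frame _ (frame_fp σ hσ)

section two

variable (G H : Type) [Group G] [Group H]

/-- The two-element family. -/
def fam : Bool → Type := fun b => match b with
  | true => G
  | false => H

instance famGroup : ∀ b, Group (fam G H b)
  | true => inferInstanceAs (Group G)
  | false => inferInstanceAs (Group H)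

/-- The binary free product as an indexed free product. -/
noncomputable def famEquiv : Monoid.Coprod G H ≃* CoprodI (fam G H) :=
  MonoidHom.toMulEquiv
    (Monoid.Coprod.lift (CoprodI.of (M := fam G H) (i := true))
      (CoprodI.of (M := fam G H) (i := false)))
    (CoprodI.lift fun b => match b with
      | true => (Monoid.Coprod.inl : G →* Monoid.Coprod G H)
      | false => (Monoid.Coprod.inr : H →* Monoid.Coprod G H))
    (by
      apply Monoid.Coprod.hom_ext
      · ext x
        simp only [MonoidHom.comp_apply, Monoid.Coprod.lift_apply_inl, MonoidHom.id_apply]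
        exact CoprodI.lift_of (M := fam G H) (i := true) _ _
      · ext x
        simp only [MonoidHom.comp_apply, Monoid.Coprod.lift_apply_inr, MonoidHom.id_apply]
        exact CoprodI.lift_of (M := fam G H) (i := false) _ _)
    (by
      apply CoprodI.ext_hom
      rintro (_ | _)
      · ext x
        simp only [MonoidHom.comp_apply, CoprodI.lift_of, MonoidHom.id_apply]
        exact Monoid.Coprod.lift_apply_inr _ _ _
      · ext x
        simp only [MonoidHom.comp_apply, CoprodI.lift_of, MonoidHom.id_apply]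
        exact Monoid.Coprod.lift_apply_inl _ _ _)

theorem spIso_of_mulEquiv {G K : Type} [Group G] [Group K] (e : G ≃* K) : SpIso G K :=
  spIso_of_frame _ (frame_lam e)

variable {G H}

theorem spIso_coprod {G' H' : Type} [Group G'] [Group H'] (h1 : SpIso G G') (h2 : SpIso H H') :
    SpIso (Monoid.Coprod G H) (Monoid.Coprod G' H') := by
  refine (spIso_of_mulEquiv (famEquiv G H)).trans
    (SpIso.trans (spIso_coprodI (H := fam G H) (H' := fam G' H') ?_)
      (spIso_of_mulEquiv (famEquiv G' H').symm))
  rintro (_ | _)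
  · exact h2
  · exact h1

end two

/-- For every group `G` (of any cardinality) the free products `G * F_α`, `α` countable with at
least two elements, all have the same group von Neumann algebra. -/
theorem spIso_coprod_free (G : Type) [Group G] (α β : Type) [Countable α] [Countable β]
    [Nontrivial α] [Nontrivial β] :
    SpIso (Monoid.Coprod G (FreeGroup α)) (Monoid.Coprod G (FreeGroup β)) :=
  spIso_coprod (spIso_of_mulEquiv (MulEquiv.refl G)) (spIso_all α β)

end Vale.Agent.P086.H677
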