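import Vale.Agent.P086.H677.FreeProd
import Vale.Agent.P086.H677.Defs

/-!
Free generating pairs of `L(F_α)` near a pair of generators, on abstract Hilbert spaces.
-/

set_option linter.all false

open scoped InnerProductSpace

namespace Vale.Agent.P086.H677

open Vale.Agent.P086

theorem hasPairNear {α : Type} [Countable α] {a b : α} (hab : a ≠ b) (ε : ℝ) (hε : 0 < ε) :
    HasPairNear a b ε := by
  intro E _ _ _ e
  obtain ⟨σ, hσ, h1, h2⟩ := near_frame hab ε hε
  let Ψ : BH (FreeGroup α) ≃⋆ₐ[ℂ] (E →L[ℂ] E) := (FF.Ph e).symm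
  have hΨ : ∀ T, FF.Ph e (Ψ T) = T := fun T => StarAlgEquiv.apply_symm_apply _ _
  have hr : ∀ (T : BH (FreeGroup α)) (ξ : E), e.repr (Ψ T ξ) = T (e.repr ξ) := by
    intro T ξ
    rw [← FF.Ph_apply, hΨ]
  let π : FreeGroup Bool → (E →L[ℂ] E) := fun g => Ψ (σ g : BH (FreeGroup α))
  have hπ : ∀ w, π w = Ψ (σ w : BH (FreeGroup α)) := fun w => rfl
  have hrep : IsRep π := by
    refine ⟨?_, ?_, ?_⟩
    · rw [hπ, map_one]
      exact map_one Ψ
    · intro w w'
      rw [hπ, hπ, hπ, map_mul, ← map_mul Ψ]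
      rfl
    · intro w ξ
      rw [← e.repr.norm_map, hπ, hr, norm_unitary_apply, e.repr.norm_map]
  refine ⟨π (FreeGroup.of false), π (FreeGroup.of true), ?_, ?_, π, hrep, rfl, rfl, ?_, ?_⟩
  · rw [FF.isLam_iff, hπ, hΨ, h1]
  · rw [← e.repr.norm_map, map_sub, hπ, hr, FF.repr_basis, FF.repr_basis]
    have h3 := h2
    rw [n2] at h3
    have e1 : ((σ (FreeGroup.of true) : BH (FreeGroup α)) - lam (FreeGroup.of b)) (dl 1) =
        (σ (FreeGroup.of true) : BH (FreeGroup α)) (dl 1) - dl (FreeGroup.of b) := by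
      rw [ContinuousLinearMap.sub_apply, lam_dl, mul_one]
    rw [e1] at h3
    exact h3
  · intro w hw
    rw [← e.repr.inner_map_map, hπ, hr, FF.repr_basis, inner_dl]
    exact hσ.tr w hw
  · intro x
    rw [FF.mem_GroupVN_iff, frame_bicommutant hσ]
    constructor
    · intro h y hy
      have h3 := h (FF.Ph e y) (fun w => by
        have h4 := congrArg (FF.Ph e) (hy w)
        rwa [map_mul, map_mul, hπ, hΨ] at h4)
      rw [← map_mul, ← map_mul] at h3
      exact FF.Ph_injective e h3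
    · intro h y hy
      have h3 := h (Ψ y) (fun w => by
        rw [hπ, ← map_mul, ← map_mul, hy w])
      have h4 := congrArg (FF.Ph e) h3
      rwa [map_mul, map_mul, hΨ] at h4

end Vale.Agent.P086.H677
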