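import Vale.Agent.P086.H677.Classify2

/-!
The generators of `L(F_γ) ≅ L(F_(γ ⊕ κ))` can be taken equal to the old ones except for one letter
`u`, which moves by as little as one likes in the 2-norm. (The proof of `exists_frame_of`, with the
additional information kept.)
-/

set_option linter.all false

open scoped InnerProductSpace

namespace Vale.Agent.P086.H677

open Vale.Agent.P086
open ContinuousLinearMap

variable {G K : Type} [Group G] [Group K]

theorem near_frame_of (hA : AbsorbStmt K) {γ κ : Type} [Countable K] (u : γ)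
    (hC : Comb (Set.range (Sum.inl : γ → γ ⊕ κ)) (Sum.inl u))
    (π : FreeGroup (γ ⊕ κ) →* unitary (BH K)) (hπ : Frame π) (ε₀ : ℝ) (hε₀ : 0 < ε₀) :
    ∃ σ : FreeGroup γ →* unitary (BH K), Frame σ ∧
      (∀ b, b ≠ u → σ (FreeGroup.of b) = π (FreeGroup.of (Sum.inl b))) ∧
      n2 ((σ (FreeGroup.of u) : BH K) - (π (FreeGroup.of (Sum.inl u)) : BH K)) ≤ ε₀ := by
  classical
  obtain ⟨gs, hgs⟩ := exists_surjective_nat K
  have step : ∀ (k : ℕ) (p : {p : (FreeGroup (γ ⊕ κ) →* unitary (BH K)) × ℝ //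
      Frame p.1 ∧ 0 < p.2}), ∃ q : {p : (FreeGroup (γ ⊕ κ) →* unitary (BH K)) × ℝ //
      Frame p.1 ∧ 0 < p.2}, q.1.2 ≤ p.1.2 / 2 ∧
      (∀ b : γ, b ≠ u → q.1.1 (FreeGroup.of (Sum.inl b)) = p.1.1 (FreeGroup.of (Sum.inl b))) ∧
      n2 ((q.1.1 (FreeGroup.of (Sum.inl u)) : BH K) -
        (p.1.1 (FreeGroup.of (Sum.inl u)) : BH K)) ≤ p.1.2 / 2 ∧
      ∀ σ : FreeGroup γ →* unitary (BH K), (∀ g, (σ g : BH K) ∈ LG K) →
        (∀ b, b ≠ u → σ (FreeGroup.of b) = p.1.1 (FreeGroup.of (Sum.inl b))) →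
        n2 ((σ (FreeGroup.of u) : BH K) - (q.1.1 (FreeGroup.of (Sum.inl u)) : BH K)) ≤ q.1.2 →
        ∀ i < k, ∃ P : CG (FreeGroup γ), ‖repAlg σ P (dl 1) - dl (gs i)‖ ≤ 1 / (k + 1 : ℝ) := by
    rintro k ⟨⟨π₀, η₀⟩, h0, hη₀⟩
    obtain ⟨π', η', h1, h2, h3, h4, h5, h6⟩ := lim_step hA u hC gs π₀ h0 η₀ hη₀ k
    exact ⟨⟨(π', η'), h1, h2⟩, h3, h4, h5, h6⟩
  choose f hf1 hf2 hf3 hf4 using step
  obtain ⟨s, hs0, hs⟩ : ∃ s : ℕ → {p : (FreeGroup (γ ⊕ κ) →* unitary (BH K)) × ℝ //
      Frame p.1 ∧ 0 < p.2}, s 0 = ⟨(π, ε₀), hπ, hε₀⟩ ∧ ∀ k, s (k + 1) = f k (s k) :=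
    ⟨fun n => Nat.rec ⟨(π, ε₀), hπ, hε₀⟩ (fun k p => f k p) n, rfl, fun _ => rfl⟩
  have hag : ∀ k (b : γ), b ≠ u → (s k).1.1 (FreeGroup.of (Sum.inl b)) =
      π (FreeGroup.of (Sum.inl b)) := by
    intro k b hb
    induction k with
    | zero => rw [hs0]
    | succ k ih => rw [hs k, hf2 k (s k) b hb, ih]
  have hpos : ∀ k, 0 < (s k).1.2 := fun k => (s k).2.2
  have hhalf : ∀ k, (s (k + 1)).1.2 ≤ (s k).1.2 / 2 := fun k => by
    rw [hs k]
    exact hf1 k (s k)
  have hpow : ∀ k, (s k).1.2 ≤ ε₀ * (1 / 2 : ℝ) ^ k := by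
    intro k
    induction k with
    | zero => rw [hs0]; simp
    | succ k ih =>
      rw [pow_succ]
      linarith [hhalf k]
  have hlim : Filter.Tendsto (fun k => (s k).1.2) Filter.atTop (nhds 0) :=
    squeeze_zero (fun k => (hpos k).le) hpow
      (by simpa using (tendsto_pow_atTop_nhds_zero_of_lt_one (r := (1 / 2 : ℝ)) (by norm_num)
        (by norm_num)).const_mul ε₀)
  have hdist : ∀ k l, k ≤ l → n2 (((s l).1.1 (FreeGroup.of (Sum.inl u)) : BH K) -
      ((s k).1.1 (FreeGroup.of (Sum.inl u)) : BH K)) ≤ (s k).1.2 - (s l).1.2 := by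
    intro k l hkl
    induction l, hkl using Nat.le_induction with
    | base => rw [sub_self, sub_self, n2_zero]
    | succ l hkl ih =>
      refine (n2_sub_le_add_sub _ (((s l).1.1 (FreeGroup.of (Sum.inl u)) : BH K)) _).trans ?_
      have h1 := hf3 l (s l)
      rw [← hs l] at h1
      linarith [hhalf l]
  obtain ⟨V, hV, hVn⟩ := lim_unitary (fun k => (s k).1.1 (FreeGroup.of (Sum.inl u)))
    (fun k => (s k).2.1.mem _) (fun k => (s k).1.2) hlim
    (fun k l hkl => (hdist k l hkl).trans (by linarith [hpos l]))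
  let σ : FreeGroup γ →* unitary (BH K) :=
    FreeGroup.lift fun b => if b = u then V else π (FreeGroup.of (Sum.inl b))
  have hσu : σ (FreeGroup.of u) = V := by
    change FreeGroup.lift _ (FreeGroup.of u) = V
    rw [FreeGroup.lift_apply_of, if_pos rfl]
  have hσb : ∀ b, b ≠ u → σ (FreeGroup.of b) = π (FreeGroup.of (Sum.inl b)) := by
    intro b hb
    change FreeGroup.lift _ (FreeGroup.of b) = _
    rw [FreeGroup.lift_apply_of, if_neg hb]
  have hσof : ∀ b, (σ (FreeGroup.of b) : BH K) ∈ LG K := by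
    intro b
    by_cases hb : b = u
    · rw [hb, hσu]
      exact hV
    · rw [hσb b hb]
      exact hπ.mem _
  have hσm : ∀ g, (σ g : BH K) ∈ LG K := by
    intro g
    induction g using FreeGroup.induction_on with
    | C1 => rw [map_one]; exact one_mem _
    | of b => exact hσof b
    | inv_of b hb => rw [map_inv]; exact star_mem hb
    | mul x y hx hy => rw [map_mul]; exact mul_mem hx hy
  have hclose : ∀ k (b : γ), n2 ((σ (FreeGroup.of b) : BH K) -
      (((s k).1.1.comp (FreeGroup.map Sum.inl)) (FreeGroup.of b) : BH K)) ≤ (s k).1.2 := by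
    intro k b
    have e : ((s k).1.1.comp (FreeGroup.map Sum.inl)) (FreeGroup.of b) =
        (s k).1.1 (FreeGroup.of (Sum.inl b)) := by
      rw [MonoidHom.comp_apply, FreeGroup.map.of]
    rw [e]
    by_cases hb : b = u
    · rw [hb, hσu]
      exact hVn k
    · rw [hσb b hb, hag k b hb, sub_self, n2_zero]
      exact (hpos k).le
  have hnear : n2 ((σ (FreeGroup.of u) : BH K) - (π (FreeGroup.of (Sum.inl u)) : BH K)) ≤ ε₀ := by
    have h1 := hVn 0
    rw [hs0] at h1
    rw [hσu]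
    exact h1
  refine ⟨σ, ⟨hσm, fun g hg => ?_, lim_dense σ fun g ε hε => ?_⟩, hσb, hnear⟩
  · obtain ⟨L, hL, hLip⟩ := lim_word (Set.univ : Set γ) g (by
      rw [Set.image_univ, FreeGroup.closure_range_of]
      exact Subgroup.mem_top g)
    have hinj : FreeGroup.map (Sum.inl : γ → γ ⊕ κ) g ≠ 1 := fun h =>
      hg (FreeGroup.map_injective Sum.inl_injective (h.trans (map_one _).symm))
    have hb : ∀ k, ‖((σ g : BH K) (dl 1)) 1‖ ≤ L * (s k).1.2 := by
      intro k
      have h1 := hLip K σ ((s k).1.1.comp (FreeGroup.map Sum.inl)) hσm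
        (fun g => (s k).2.1.mem _) (s k).1.2 (hpos k).le (fun b _ => hclose k b)
      have h2 := (s k).2.1.tr _ hinj
      have h3 : ((σ g : BH K) (dl 1)) 1 =
          (((σ g : BH K) - (((s k).1.1.comp (FreeGroup.map Sum.inl)) g : BH K)) (dl 1)) 1 := by
        rw [sub_apply, lp.coeFn_sub, Pi.sub_apply]
        have h4 : ((((s k).1.1.comp (FreeGroup.map Sum.inl)) g : BH K) (dl 1)) 1 = 0 := h2
        rw [h4, sub_zero]
      rw [h3]
      exact (lp.norm_apply_le_norm (by norm_num) _ _).trans h1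
    have h5 : ‖((σ g : BH K) (dl 1)) 1‖ ≤ 0 := by
      have h6 : Filter.Tendsto (fun k => L * (s k).1.2) Filter.atTop (nhds 0) := by
        simpa using hlim.const_mul L
      exact ge_of_tendsto' h6 hb
    exact norm_le_zero_iff.mp h5
  · obtain ⟨i, hi⟩ := hgs g
    obtain ⟨n, hn⟩ := exists_nat_one_div_lt hε
    obtain ⟨P, hP⟩ := hf4 (max n (i + 1)) (s (max n (i + 1))) σ hσm
      (fun b hb => by rw [hσb b hb, hag _ b hb]) (by
        rw [hσu, ← hs]
        exact hVn _) i (lt_of_lt_of_le (Nat.lt_succ_self i) (le_max_right _ _))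
    refine ⟨P, ?_⟩
    rw [hi] at hP
    refine lt_of_le_of_lt (hP.trans ?_) hn
    have h1 : (n : ℝ) ≤ ((max n (i + 1) : ℕ) : ℝ) := by exact_mod_cast le_max_left _ _
    exact one_div_le_one_div_of_le (by positivity) (by linarith)


/-- A frame generates `L(K)`: `σ(G)'' = L(K)`. -/
theorem frame_bicommutant {σ : G →* unitary (BH K)} (hσ : Frame σ) (x : BH K) :
    x ∈ LG K ↔ ∀ y : BH K, (∀ g, (σ g : BH K) * y = y * (σ g : BH K)) → x * y = y * x := by
  constructor
  · intro hx y hy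
    set Φ := (IsoFrame.Wu σ hσ).conjStarAlgEquiv with hΦ
    have hx' : Φ.symm x ∈ LG G := IsoFrame.conj_symm_mem_LG σ hσ hx
    have hy' : Φ.symm y ∈ StarSubalgebra.centralizer ℂ (Set.range (lam (G := G))) := by
      rw [IsoFrame.mem_comm_lam_iff]
      intro g
      apply Φ.injective
      change Φ (lam g * Φ.symm y) = Φ (Φ.symm y * lam g)
      rw [map_mul, map_mul, Φ.apply_symm_apply, hΦ, IsoFrame.conj_lam]
      exact hy g
    have h1 := congrArg Φ ((IsoFrame.mem_LG_iff _).mp hx' _ hy')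
    rw [map_mul, map_mul, Φ.apply_symm_apply, Φ.apply_symm_apply] at h1
    exact h1.symm
  · intro h
    rw [IsoFrame.mem_LG_iff]
    intro S hS
    exact (h S fun g => ((IsoFrame.mem_LG_iff _).mp (hσ.mem g) S hS).symm).symm

/-- Near any two generators there is a generating free pair. -/
theorem near_frame {α : Type} [Countable α] {a b : α} (hab : a ≠ b) (ε : ℝ) (hε : 0 < ε) :
    ∃ σ : FreeGroup Bool →* unitary (BH (FreeGroup α)), Frame σ ∧
      (σ (FreeGroup.of false) : BH (FreeGroup α)) = lam (FreeGroup.of a) ∧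
      n2 ((σ (FreeGroup.of true) : BH (FreeGroup α)) - lam (FreeGroup.of b)) ≤ ε := by
  classical
  let κ : Type := {c : α // c ≠ a ∧ c ≠ b}
  let f : Bool ⊕ κ → α := Sum.elim (fun t => if t then b else a) Subtype.val
  have hf : Function.Bijective f := by
    constructor
    · rintro (s | ⟨s, hs⟩) (t | ⟨t, ht⟩) h
      · cases s <;> cases t
        · rfl
        · exact absurd h hab
        · exact absurd h.symm hab
        · rfl
      · cases s
        · exact absurd h.symm ht.1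
        · exact absurd h.symm ht.2
      · cases t
        · exact absurd h hs.1
        · exact absurd h hs.2
      · have : s = t := h
        subst this
        rfl
    · intro c
      by_cases h1 : c = a
      · exact ⟨Sum.inl false, h1.symm⟩
      · by_cases h2 : c = b
        · exact ⟨Sum.inl true, h2.symm⟩
        · exact ⟨Sum.inr ⟨c, h1, h2⟩, rfl⟩
  let e : Bool ⊕ κ ≃ α := Equiv.ofBijective f hf
  have hC : Comb (Set.range (Sum.inl : Bool → Bool ⊕ κ)) (Sum.inl true) := by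
    refine Comb.mono (comb_one (Sum.inl false) (Sum.inl true)
      fun e => Bool.false_ne_true (Sum.inl_injective e)) ?_
    rintro c (rfl | rfl)
    · exact ⟨false, rfl⟩
    · exact ⟨true, rfl⟩
  have := countable_freeGroup (α := α)
  obtain ⟨σ, hσ, h1, h2⟩ := near_frame_of (γ := Bool) (κ := κ) (K := FreeGroup α)
    (fun β S u x hu hx hC π hπ ε hε => absorb S u x hu hx hC π hπ ε hε) true hC _
    (frame_lam (FreeGroup.freeGroupCongr e)) ε hε
  refine ⟨σ, hσ, ?_, ?_⟩
  · rw [h1 false (by simp)]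
    rfl
  · exact h2

end Vale.Agent.P086.H677
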