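import Vale.Agent.P086.Bdl.B4
import Vale.Agent.P086.FF.RankSt

/-!
Powers averaging for free groups of infinite rank, and: a bounded trace on `L(F_α)`, `α` infinite,
vanishes on `λ(g)`, `g ≠ 1`.
-/

set_option linter.all false

open scoped InnerProductSpace

namespace Vale.Agent.P086.H677

open Vale.Agent.P086

section words

variable {α : Type}

open Classical in
/-- the reduced words starting with the letter `x` -/
def Dx (x : α) : Set (FreeGroup α) := {w | w.toWord.head? = some (x, true)}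

theorem Dx_disj {x y : α} {w : FreeGroup α} (h : w ∈ Dx x) (h' : w ∈ Dx y) : x = y := by
  classical
  have h1 : w.toWord.head? = some (x, true) := h
  have h2 : w.toWord.head? = some (y, true) := h'
  rw [h1] at h2
  simpa using h2

theorem conj_mem {x : α} {g w : FreeGroup α} (hg : g ≠ 1)
    (hx : ∀ b ∈ (@FreeGroup.toWord α (Classical.decEq α) g), b.1 ≠ x) (hw : w ∉ Dx x) :
    FreeGroup.of x * g * (FreeGroup.of x)⁻¹ * w ∈ Dx x := by
  classical
  have hdec : (Classical.decEq α) = (fun a b => Classical.propDecidable (a = b)) :=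
    Subsingleton.elim _ _
  have hg0 : g.toWord ≠ [] := by
    intro h
    exact hg (FreeGroup.toWord_eq_nil_iff.mp h)
  have hx' : ∀ b ∈ g.toWord, b.1 ≠ x := by
    intro b hb
    apply hx
    convert hb using 1
  have hL : FreeGroup.IsReduced ((x, true) :: (g.toWord ++ (x, false) :: w.toWord)) := by
    rw [FreeGroup.IsReduced, List.isChain_cons]
    refine ⟨?_, ?_⟩
    · intro b hb hxb
      rw [List.head?_append_of_ne_nil _ hg0] at hb
      exact absurd hxb.symm (hx' b (List.mem_of_mem_head? hb))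
    · rw [List.isChain_append]
      refine ⟨FreeGroup.isReduced_toWord, ?_, ?_⟩
      · rw [List.isChain_cons]
        refine ⟨?_, FreeGroup.isReduced_toWord⟩
        intro b hb hxb
        by_contra h
        have hb2 : b = (x, true) := by
          ext
          · exact hxb.symm
          · change b.2 = true
            change ¬ (false = b.2) at h
            cases h' : b.2
            · exact absurd h'.symm h
            · rfl
        apply hw
        change w.toWord.head? = some (x, true)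
        rw [← hb2]
        exact hb
      · intro a ha b hb hab
        rw [List.head?_cons] at hb
        have hb' : b = (x, false) := by simpa using hb.symm
        rw [hb'] at hab
        exact absurd hab (hx' a (List.mem_of_mem_getLast? ha))
  have hmk : FreeGroup.of x * g * (FreeGroup.of x)⁻¹ * w =
      FreeGroup.mk ((x, true) :: (g.toWord ++ (x, false) :: w.toWord)) := by
    conv_lhs => rw [← FreeGroup.mk_toWord (x := g), ← FreeGroup.mk_toWord (x := w)]
    rw [FreeGroup.of, FreeGroup.inv_mk, FreeGroup.mul_mk, FreeGroup.mul_mk, FreeGroup.mul_mk]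
    congr 1
    simp [FreeGroup.invRev]
  change (FreeGroup.toWord _).head? = some (x, true)
  rw [hmk, FreeGroup.toWord_mk, hL.reduce_eq]
  rfl

end words

section ops

variable {X : Type}

/-- squares of the norms of the restrictions to disjoint sets -/
theorem sum_ind_le {ι : Type} (s : Finset ι) (D : ι → Set X)
    (hD : ∀ i ∈ s, ∀ j ∈ s, ∀ w, w ∈ D i → w ∈ D j → i = j) (ξ : Ell2 X) :
    ∑ i ∈ s, ‖indOp (D i) ξ‖ ^ 2 ≤ ‖ξ‖ ^ 2 := by
  classical
  have hn : ∀ ζ : Ell2 X, HasSum (fun w => ‖ζ w‖ ^ 2) (‖ζ‖ ^ 2) := by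
    intro ζ
    have h := lp.hasSum_norm (p := 2) (by norm_num) ζ
    simpa using h
  have h1 : HasSum (fun w => ∑ i ∈ s, ‖(indOp (D i) ξ) w‖ ^ 2) (∑ i ∈ s, ‖indOp (D i) ξ‖ ^ 2) :=
    hasSum_sum fun i _ => hn _
  refine hasSum_le (fun w => ?_) h1 (hn ξ)
  by_cases hw : ∃ i ∈ s, w ∈ D i
  · obtain ⟨i, hi, hwi⟩ := hw
    rw [Finset.sum_eq_single i]
    · rw [indOp_apply, if_pos hwi]
    · intro j hj hji
      rw [indOp_apply, if_neg (fun h => hji (hD j hj i hi w h hwi))]
      simp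
    · intro h
      exact absurd hi h
  · push Not at hw
    rw [Finset.sum_eq_zero]
    · positivity
    · intro i hi
      rw [indOp_apply, if_neg (hw i hi)]
      simp

theorem norm_indOp_le (D : Set X) (ξ : Ell2 X) : ‖indOp D ξ‖ ≤ ‖ξ‖ := by
  classical
  have h := sum_ind_le ({()} : Finset Unit) (fun _ => D) (fun i _ j _ _ _ _ => rfl) ξ
  simp only [Finset.sum_singleton] at h
  exact (sq_le_sq₀ (norm_nonneg _) (norm_nonneg _)).mp h

theorem inner_indOp (D : Set X) (ξ η : Ell2 X) : ⟪indOp D ξ, η⟫_ℂ = ⟪indOp D ξ, indOp D η⟫_ℂ := by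
  classical
  rw [lp.inner_eq_tsum, lp.inner_eq_tsum]
  refine tsum_congr fun w => ?_
  rw [indOp_apply, indOp_apply]
  split_ifs <;> simp

variable {G : Type} [Group G]

/-- Powers' estimate: `‖∑ λ(kᵢ)‖ ≤ 2 √n` if `kᵢ` maps the complement of `Dᵢ` into `Dᵢ`, the `Dᵢ`
being disjoint. -/
theorem powers {ι : Type} (s : Finset ι) (k : ι → G) (D : ι → Set G)
    (hD : ∀ i ∈ s, ∀ j ∈ s, ∀ w, w ∈ D i → w ∈ D j → i = j)
    (hk : ∀ i ∈ s, ∀ w, w ∉ D i → k i * w ∈ D i) :
    ‖∑ i ∈ s, lam (k i)‖ ≤ 2 * Real.sqrt s.card := by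
  classical
  refine ContinuousLinearMap.opNorm_le_bound _ (by positivity) fun ξ => ?_
  have hdec : ∀ i ∈ s, lam (k i) ξ = indOp (D i) (lam (k i) ξ) +
      (lam (k i) (indOp (D i) ξ) - indOp (D i) (lam (k i) (indOp (D i) ξ))) := by
    intro i hi
    ext w
    rw [lp.coeFn_add, Pi.add_apply, lp.coeFn_sub, Pi.sub_apply, indOp_apply, indOp_apply,
      lam_apply, lam_apply, indOp_apply]
    by_cases hw : w ∈ D i
    · rw [if_pos hw, if_pos hw]
      ring
    · have h2 : (k i)⁻¹ * w ∈ D i := by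
        by_contra h
        apply hw
        have := hk i hi _ h
        rwa [mul_inv_cancel_left] at this
      rw [if_neg hw, if_neg hw, if_pos h2]
      ring
  have hnl : ∀ (g : G) (ζ : Ell2 G), ‖lam g ζ‖ = ‖ζ‖ := fun g ζ => norm_permOp_apply _ ζ
  have h0 : (∑ i ∈ s, lam (k i)) ξ = (∑ i ∈ s, indOp (D i) (lam (k i) ξ)) +
      ∑ i ∈ s, (lam (k i) (indOp (D i) ξ) - indOp (D i) (lam (k i) (indOp (D i) ξ))) := by
    rw [ContinuousLinearMap.sum_apply, ← Finset.sum_add_distrib]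
    exact Finset.sum_congr rfl hdec
  -- Cauchy-Schwarz in the index
  have hcs : ∀ a b : ι → ℝ, (∑ i ∈ s, a i * b i) ^ 2 ≤ (∑ i ∈ s, a i ^ 2) * ∑ i ∈ s, b i ^ 2 :=
    fun a b => Finset.sum_mul_sq_le_sq_mul_sq s a b
  have h1 : ‖∑ i ∈ s, indOp (D i) (lam (k i) ξ)‖ ≤ Real.sqrt s.card * ‖ξ‖ := by
    set S := ∑ i ∈ s, indOp (D i) (lam (k i) ξ) with hS
    by_cases hS0 : ‖S‖ = 0
    · rw [hS0]; positivity
    have hSp : 0 < ‖S‖ := lt_of_le_of_ne (norm_nonneg _) (Ne.symm hS0)
    have e1 : ‖S‖ ^ 2 ≤ ∑ i ∈ s, ‖ξ‖ * ‖indOp (D i) S‖ := by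
      have e2 : ((‖S‖ ^ 2 : ℝ) : ℂ) = ∑ i ∈ s, ⟪indOp (D i) (lam (k i) ξ), indOp (D i) S⟫_ℂ := by
        have e3 : ⟪S, S⟫_ℂ = ((‖S‖ ^ 2 : ℝ) : ℂ) := by
          rw [inner_self_eq_norm_sq_to_K]; norm_cast
        rw [← e3]
        conv_lhs => rw [hS, sum_inner]
        refine Finset.sum_congr rfl fun i _ => ?_
        exact inner_indOp _ _ _
      have e4 : ‖S‖ ^ 2 = ‖∑ i ∈ s, ⟪indOp (D i) (lam (k i) ξ), indOp (D i) S⟫_ℂ‖ := by
        rw [← e2, Complex.norm_real, Real.norm_of_nonneg (by positivity)]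
      rw [e4]
      refine (norm_sum_le _ _).trans (Finset.sum_le_sum fun i _ => ?_)
      refine (norm_inner_le_norm _ _).trans ?_
      gcongr
      exact (norm_indOp_le _ _).trans (hnl _ _).le
    have e5 : (∑ i ∈ s, ‖ξ‖ * ‖indOp (D i) S‖) ≤ Real.sqrt s.card * ‖ξ‖ * ‖S‖ := by
      have h := hcs (fun _ => ‖ξ‖) (fun i => ‖indOp (D i) S‖)
      refine (abs_le_of_sq_le_sq' (h.trans ?_) (by positivity)).2
      rw [Finset.sum_const, nsmul_eq_mul]
      calc (s.card : ℝ) * ‖ξ‖ ^ 2 * ∑ i ∈ s, ‖indOp (D i) S‖ ^ 2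
          ≤ (s.card : ℝ) * ‖ξ‖ ^ 2 * ‖S‖ ^ 2 := by
            gcongr
            exact sum_ind_le s D hD S
        _ = (Real.sqrt s.card * ‖ξ‖ * ‖S‖) ^ 2 := by
            rw [mul_pow, mul_pow, Real.sq_sqrt (by positivity)]
    have e6 : ‖S‖ * ‖S‖ ≤ Real.sqrt s.card * ‖ξ‖ * ‖S‖ := by
      rw [← sq]; exact e1.trans e5
    exact le_of_mul_le_mul_right e6 hSp
  have h2 : ‖∑ i ∈ s, (lam (k i) (indOp (D i) ξ) - indOp (D i) (lam (k i) (indOp (D i) ξ)))‖
      ≤ Real.sqrt s.card * ‖ξ‖ := by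
    have e1 : ‖∑ i ∈ s, (lam (k i) (indOp (D i) ξ) - indOp (D i) (lam (k i) (indOp (D i) ξ)))‖
        ≤ ∑ i ∈ s, 1 * ‖indOp (D i) ξ‖ := by
      refine (norm_sum_le _ _).trans (Finset.sum_le_sum fun i _ => ?_)
      rw [one_mul]
      have e2 : lam (k i) (indOp (D i) ξ) - indOp (D i) (lam (k i) (indOp (D i) ξ)) =
          indOp (D i)ᶜ (lam (k i) (indOp (D i) ξ)) := by
        ext w
        rw [lp.coeFn_sub, Pi.sub_apply, indOp_apply, indOp_apply]
        by_cases hw : w ∈ D i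
        · rw [if_pos hw, if_neg (fun h => h hw)]
          simp
        · rw [if_neg hw, if_pos (show w ∈ (D i)ᶜ from hw)]
          simp
      rw [e2]
      exact (norm_indOp_le _ _).trans (hnl _ _).le
    refine e1.trans ?_
    have h := hcs (fun _ => (1 : ℝ)) (fun i => ‖indOp (D i) ξ‖)
    refine (abs_le_of_sq_le_sq' (h.trans ?_) (by positivity)).2
    rw [Finset.sum_const, nsmul_eq_mul, one_pow, mul_one, mul_pow, Real.sq_sqrt (by positivity)]
    gcongr
    exact sum_ind_le s D hD ξ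
  rw [h0]
  refine (norm_add_le _ _).trans ?_
  linarith

end ops

end Vale.Agent.P086.H677
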